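import Vale.Agent.P164.H362.Reg

/-!
# Conformal covariance of the gauge measure
-/

namespace Vale.Agent.P164.H362

open Set Metric Filter Topology MeasureTheory Vale.Agent.P164
open scoped NNReal ENNReal

variable {h : ℝ → ℝ} {d : ℝ}

/-- Near a point with nonzero derivative a holomorphic map is almost a similarity. -/
theorem local_similarity {U : Set ℂ} (hU : IsOpen U) {φ : ℂ → ℂ} (hφ : DifferentiableOn ℂ φ U)
    {z₀ : ℂ} (hz : z₀ ∈ U) (h0 : deriv φ z₀ ≠ 0) {K : ℝ} (hK : 1 < K) :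
    ∃ ρ : ℝ, 0 < ρ ∧ ball z₀ ρ ⊆ U ∧
      (∀ x ∈ ball z₀ ρ, ∀ y ∈ ball z₀ ρ,
        dist (φ x) (φ y) ≤ K * ‖deriv φ z₀‖ * dist x y) ∧
      (∀ x ∈ ball z₀ ρ, ∀ y ∈ ball z₀ ρ,
        dist x y ≤ K / ‖deriv φ z₀‖ * dist (φ x) (φ y)) ∧
      (∀ x ∈ ball z₀ ρ, ‖deriv φ z₀‖ / K ≤ ‖deriv φ x‖ ∧ ‖deriv φ x‖ ≤ K * ‖deriv φ z₀‖) := by
  set a : ℝ := ‖deriv φ z₀‖ with ha
  have ha0 : 0 < a := norm_pos_iff.2 h0
  have hK0 : 0 < K := by linarith
  -- `η a` with `1 + η ≤ K` and `1 / K ≤ 1 - η`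
  set η : ℝ := 1 - 1 / K with hη
  have hη0 : 0 < η := by
    rw [hη, sub_pos, div_lt_one hK0]
    exact hK
  have hη1 : 1 - η = 1 / K := by rw [hη]; ring
  have hη2 : 1 + η ≤ K := by
    have h1 : 0 ≤ (K - 1) ^ 2 / K := by positivity
    have h2 : (K - 1) ^ 2 / K = K - (1 + η) := by
      rw [hη]
      field_simp
      ring
    linarith
  have hcont : ContinuousAt (deriv φ) z₀ :=
    ((hφ.deriv hU).continuousOn.continuousAt (hU.mem_nhds hz))
  have hev : ∀ᶠ z in 𝓝 z₀, ‖deriv φ z - deriv φ z₀‖ < η * a := by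
    have h1 : Tendsto (fun z => ‖deriv φ z - deriv φ z₀‖) (𝓝 z₀) (𝓝 0) := by
      have := (hcont.tendsto.sub_const (deriv φ z₀)).norm
      simpa using this
    exact h1.eventually_lt_const (by positivity)
  obtain ⟨ρ, hρ, hb⟩ := Metric.eventually_nhds_iff_ball.1 (hev.and (hU.mem_nhds hz))
  have hlin : ∀ x ∈ ball z₀ ρ, ∀ y ∈ ball z₀ ρ,
      ‖(φ x - φ y) - deriv φ z₀ * (x - y)‖ ≤ η * a * ‖x - y‖ := by
    intro x hx y hy
    have hdiff : ∀ z ∈ ball z₀ ρ, HasDerivWithinAt (fun w => φ w - deriv φ z₀ * w)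
        (deriv φ z - deriv φ z₀) (ball z₀ ρ) z := by
      intro z hzb
      have h1 : HasDerivAt φ (deriv φ z) z :=
        (hφ.differentiableAt (hU.mem_nhds (hb z hzb).2)).hasDerivAt
      have h2 : HasDerivAt (fun w : ℂ => deriv φ z₀ * w) (deriv φ z₀) z := by
        simpa using (hasDerivAt_id z).const_mul (deriv φ z₀)
      exact (h1.sub h2).hasDerivWithinAt
    have h3 := (convex_ball z₀ ρ).norm_image_sub_le_of_norm_hasDerivWithin_le hdiff
      (fun z hzb => (hb z hzb).1.le) hy hx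
    have h4 : (φ x - φ y) - deriv φ z₀ * (x - y) =
        (φ x - deriv φ z₀ * x) - (φ y - deriv φ z₀ * y) := by ring
    rw [h4]
    exact h3
  refine ⟨ρ, hρ, fun z hz => (hb z hz).2, ?_, ?_, ?_⟩
  · intro x hx y hy
    have h1 := hlin x hx y hy
    have h2 : ‖φ x - φ y‖ ≤ ‖(φ x - φ y) - deriv φ z₀ * (x - y)‖ + ‖deriv φ z₀ * (x - y)‖ := by
      have := norm_add_le ((φ x - φ y) - deriv φ z₀ * (x - y)) (deriv φ z₀ * (x - y))
      rwa [sub_add_cancel] at this
    rw [norm_mul] at h2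
    rw [dist_eq_norm, dist_eq_norm]
    have h3 : (1 + η) * (a * ‖x - y‖) ≤ K * (a * ‖x - y‖) := by gcongr
    rw [← ha] at h2
    linarith
  · intro x hx y hy
    have h1 := hlin x hx y hy
    have h2 : ‖deriv φ z₀ * (x - y)‖ ≤ ‖(φ x - φ y) - deriv φ z₀ * (x - y)‖ + ‖φ x - φ y‖ := by
      have := norm_sub_le (φ x - φ y) ((φ x - φ y) - deriv φ z₀ * (x - y))
      rw [sub_sub_cancel] at this
      linarith
    rw [norm_mul, ← ha] at h2
    rw [dist_eq_norm, dist_eq_norm]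
    have h3 : (1 - η) * (a * ‖x - y‖) ≤ ‖φ x - φ y‖ := by linarith
    rw [hη1] at h3
    rw [div_mul_eq_mul_div, le_div_iff₀ ha0]
    have h4 : 1 / K * (a * ‖x - y‖) = (‖x - y‖ * a) / K := by ring
    rw [h4, div_le_iff₀ hK0] at h3
    linarith
  · intro x hx
    have h1 := (hb x hx).1
    have h2 : ‖deriv φ x‖ ≤ ‖deriv φ x - deriv φ z₀‖ + ‖deriv φ z₀‖ := by
      have := norm_add_le (deriv φ x - deriv φ z₀) (deriv φ z₀)
      rwa [sub_add_cancel] at this
    have h3 : ‖deriv φ z₀‖ ≤ ‖deriv φ x - deriv φ z₀‖ + ‖deriv φ x‖ := by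
      have := norm_sub_le (deriv φ x) (deriv φ x - deriv φ z₀)
      rw [sub_sub_cancel] at this
      linarith
    rw [← ha] at h2 h3
    constructor
    · have h4 : a / K = (1 - η) * a := by rw [hη1]; ring
      rw [h4]
      linarith
    · have h5 : (1 + η) * a ≤ K * a := by gcongr
      linarith

/-- The two-sided comparison on a small piece. -/
theorem piece (hh : IsGauge h) (hd : 0 ≤ d) (hv : RegVar h d) {φ : ℂ → ℂ} {A : Set ℂ}
    (hA : MeasurableSet A) {a K : ℝ} (ha : 0 < a) (hK : 1 < K)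
    (h1 : ∀ x ∈ A, ∀ y ∈ A, dist (φ x) (φ y) ≤ K * a * dist x y)
    (h2 : ∀ x ∈ A, ∀ y ∈ A, dist x y ≤ K / a * dist (φ x) (φ y))
    (h3 : ∀ x ∈ A, a / K ≤ ‖deriv φ x‖ ∧ ‖deriv φ x‖ ≤ K * a) :
    gaugeMeasure h (φ '' A) ≤
        ENNReal.ofReal (K ^ (2 * d)) * ∫⁻ z in A, ENNReal.ofReal (‖deriv φ z‖ ^ d) ∂(hMeas h) ∧
      ∫⁻ z in A, ENNReal.ofReal (‖deriv φ z‖ ^ d) ∂(hMeas h) ≤
        ENNReal.ofReal (K ^ (2 * d)) * gaugeMeasure h (φ '' A) := by
  have hK0 : 0 < K := by linarith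
  have hKd : 0 < K ^ d := Real.rpow_pos_of_pos hK0 d
  have had : 0 < a ^ d := Real.rpow_pos_of_pos ha d
  have e1 : (K * a) ^ d = K ^ d * a ^ d := Real.mul_rpow hK0.le ha.le
  have e2 : (a / K) ^ d = a ^ d / K ^ d := Real.div_rpow ha.le hK0.le d
  have e3 : (K / a) ^ d = K ^ d / a ^ d := Real.div_rpow hK0.le ha.le d
  have e4 : K ^ (2 * d) = K ^ d * K ^ d := by
    rw [two_mul, Real.rpow_add hK0]
  have u1 : gaugeMeasure h (φ '' A) ≤ ENNReal.ofReal ((K * a) ^ d) * gaugeMeasure h A :=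
    gaugeMeasure_lip hh hv (by positivity) h1
  have u2 : gaugeMeasure h A ≤ ENNReal.ofReal ((K / a) ^ d) * gaugeMeasure h (φ '' A) := by
    have h4 : InjOn φ A := by
      intro x hx y hy hxy
      have := h2 x hx y hy
      rw [hxy, dist_self, mul_zero] at this
      exact dist_le_zero.1 this
    have h5 : Function.invFunOn φ A '' (φ '' A) = A := by
      rw [image_image]
      ext z
      constructor
      · rintro ⟨w, hw, rfl⟩
        exact Function.invFunOn_mem ⟨w, hw, rfl⟩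
      · intro hz
        exact ⟨z, hz, h4 (Function.invFunOn_mem ⟨z, hz, rfl⟩) hz
          (Function.invFunOn_eq ⟨z, hz, rfl⟩)⟩
    have h6 := gaugeMeasure_lip (f := Function.invFunOn φ A) (E := φ '' A) hh hv
      (show 0 < K / a by positivity) (fun x hx y hy => by
        have m1 := Function.invFunOn_mem hx
        have m2 := Function.invFunOn_mem hy
        have m3 := Function.invFunOn_eq hx
        have m4 := Function.invFunOn_eq hy
        have m5 := h2 _ m1 _ m2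
        rwa [m3, m4] at m5)
    rwa [h5] at h6
  have l1 : ENNReal.ofReal ((a / K) ^ d) * gaugeMeasure h A ≤
      ∫⁻ z in A, ENNReal.ofReal (‖deriv φ z‖ ^ d) ∂(hMeas h) := by
    rw [← hMeas_apply hh.zero, ← setLIntegral_const]
    refine setLIntegral_mono' hA fun z hz => ?_
    apply ENNReal.ofReal_le_ofReal
    exact Real.rpow_le_rpow (by positivity) (h3 z hz).1 hd
  have l2 : ∫⁻ z in A, ENNReal.ofReal (‖deriv φ z‖ ^ d) ∂(hMeas h) ≤
      ENNReal.ofReal ((K * a) ^ d) * gaugeMeasure h A := by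
    rw [← hMeas_apply hh.zero, ← setLIntegral_const]
    refine setLIntegral_mono' hA fun z hz => ?_
    apply ENNReal.ofReal_le_ofReal
    exact Real.rpow_le_rpow (norm_nonneg _) (h3 z hz).2 hd
  constructor
  · refine u1.trans ?_
    have e5 : (K * a) ^ d = K ^ (2 * d) * (a / K) ^ d := by
      rw [e1, e2, e4]
      field_simp
    rw [e5, ENNReal.ofReal_mul (by positivity), mul_assoc]
    gcongr
  · refine l2.trans ?_
    have e5 : K ^ (2 * d) = (K * a) ^ d * (K / a) ^ d := by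
      rw [e1, e3, e4]
      field_simp
    rw [e5, ENNReal.ofReal_mul (by positivity), mul_assoc]
    gcongr

theorem le_of_forall_factor {x y : ℝ≥0∞} (H : ∀ K : ℝ, 1 < K → x ≤ ENNReal.ofReal (K ^ d) * y) :
    x ≤ y := by
  by_cases hy : y = ⊤
  · rw [hy]; exact le_top
  have h1 : Tendsto (fun K : ℝ => ENNReal.ofReal (K ^ d) * y) (𝓝[>] 1) (𝓝 y) := by
    have h2 : Tendsto (fun K : ℝ => ENNReal.ofReal (K ^ d)) (𝓝[>] 1) (𝓝 1) := by
      have h3 : ContinuousAt (fun K : ℝ => K ^ d) 1 :=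
        Real.continuousAt_rpow_const _ _ (Or.inl one_ne_zero)
      have h4 : Tendsto (fun K : ℝ => ENNReal.ofReal (K ^ d)) (𝓝 1) (𝓝 (ENNReal.ofReal (1 ^ d))) :=
        ENNReal.tendsto_ofReal h3.tendsto
      rw [Real.one_rpow, ENNReal.ofReal_one] at h4
      exact h4.mono_left nhdsWithin_le_nhds
    have h5 := ENNReal.Tendsto.mul_const (b := y) h2 (Or.inr hy)
    rwa [one_mul] at h5
  exact ge_of_tendsto h1 (eventually_nhdsWithin_of_forall fun K hK => H K hK)

/-- Conformal covariance: for a holomorphic map `φ` on an open set `U` and a Borel set `E ⊆ U` on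
which `φ` is injective with nonzero derivative, `H^h (φ E) = ∫_E |φ'|^d dH^h`. -/
theorem conformal (hh : IsGauge h) (hd : 0 ≤ d) (hv : RegVar h d) {U : Set ℂ} (hU : IsOpen U)
    {φ : ℂ → ℂ} (hφ : DifferentiableOn ℂ φ U) {E : Set ℂ} (hE : MeasurableSet E) (hEU : E ⊆ U)
    (hinj : InjOn φ E) (h0 : ∀ z ∈ E, deriv φ z ≠ 0) :
    gaugeMeasure h (φ '' E) = ∫⁻ z in E, ENNReal.ofReal (‖deriv φ z‖ ^ d) ∂(hMeas h) := by
  have main : ∀ K : ℝ, 1 < K → gaugeMeasure h (φ '' E) ≤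
        ENNReal.ofReal (K ^ (2 * d)) * ∫⁻ z in E, ENNReal.ofReal (‖deriv φ z‖ ^ d) ∂(hMeas h) ∧
      ∫⁻ z in E, ENNReal.ofReal (‖deriv φ z‖ ^ d) ∂(hMeas h) ≤
        ENNReal.ofReal (K ^ (2 * d)) * gaugeMeasure h (φ '' E) := by
    intro K hK
    rcases E.eq_empty_or_nonempty with he | ⟨e₀, he₀⟩
    · subst he
      simp only [image_empty, Measure.restrict_empty, lintegral_zero_measure, mul_zero]
      have : gaugeMeasure h (∅ : Set ℂ) = 0 := by
        rw [← hMeas_apply hh.zero, measure_empty]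
      rw [this]
      simp
    have hloc := fun z : E => local_similarity hU hφ (hEU z.2) (h0 z z.2) hK
    choose ρ hρ hρU hl1 hl2 hl3 using hloc
    obtain ⟨T, hT, hcov⟩ := TopologicalSpace.isOpen_iUnion_countable
      (fun z : E => ball (z : ℂ) (ρ z)) (fun z => isOpen_ball)
    have hTne : T.Nonempty := by
      have h1 : e₀ ∈ ⋃ z : E, ball (z : ℂ) (ρ z) :=
        mem_iUnion.2 ⟨⟨e₀, he₀⟩, mem_ball_self (hρ _)⟩
      rw [← hcov] at h1
      obtain ⟨z, hz, -⟩ := mem_iUnion₂.1 h1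
      exact ⟨z, hz⟩
    obtain ⟨e, he⟩ := hT.exists_eq_range hTne
    set B : ℕ → Set ℂ := fun n => ball (e n : ℂ) (ρ (e n)) with hB
    set A : ℕ → Set ℂ := fun n => E ∩ disjointed B n with hA
    have hAm : ∀ n, MeasurableSet (A n) := fun n =>
      hE.inter (MeasurableSet.disjointed (fun i => measurableSet_ball) n)
    have hAB : ∀ n, A n ⊆ B n := fun n z hz => disjointed_subset B n hz.2
    have hAd : Pairwise (Function.onFun Disjoint A) := fun i j hij =>
      (disjoint_disjointed B hij).mono inter_subset_right inter_subset_right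
    have hAE : ⋃ n, A n = E := by
      rw [hA, ← inter_iUnion, iUnion_disjointed]
      refine inter_eq_left.2 fun z hz => ?_
      have h1 : z ∈ ⋃ z : E, ball (z : ℂ) (ρ z) := mem_iUnion.2 ⟨⟨z, hz⟩, mem_ball_self (hρ _)⟩
      rw [← hcov] at h1
      obtain ⟨w, hw, hw2⟩ := mem_iUnion₂.1 h1
      rw [he] at hw
      obtain ⟨n, rfl⟩ := hw
      exact mem_iUnion.2 ⟨n, hw2⟩
    have hAsub : ∀ n, A n ⊆ E := fun n => inter_subset_left
    have hp := fun n => piece hh hd hv (hAm n) (norm_pos_iff.2 (h0 (e n) (e n).2)) hK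
      (fun x hx y hy => hl1 (e n) x (hAB n hx) y (hAB n hy))
      (fun x hx y hy => hl2 (e n) x (hAB n hx) y (hAB n hy))
      (fun x hx => hl3 (e n) x (hAB n hx))
    have hsum1 : gaugeMeasure h (φ '' E) = ∑' n, gaugeMeasure h (φ '' A n) := by
      have h1 : φ '' E = ⋃ n, φ '' A n := by rw [← image_iUnion, hAE]
      rw [← hMeas_apply hh.zero, h1, measure_iUnion]
      · exact tsum_congr fun n => hMeas_apply hh.zero _
      · intro i j hij
        refine Set.disjoint_left.2 ?_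
        rintro _ ⟨x, hx, rfl⟩ ⟨y, hy, hxy⟩
        have h2 := hinj (hAsub j hy) (hAsub i hx) hxy
        rw [h2] at hy
        exact Set.disjoint_left.1 (hAd hij) hx hy
      · intro n
        exact (hAm n).image_of_continuousOn_injOn
          (hφ.continuousOn.mono ((hAsub n).trans hEU)) (hinj.mono (hAsub n))
    have hsum2 : ∫⁻ z in E, ENNReal.ofReal (‖deriv φ z‖ ^ d) ∂(hMeas h) =
        ∑' n, ∫⁻ z in A n, ENNReal.ofReal (‖deriv φ z‖ ^ d) ∂(hMeas h) := by
      conv_lhs => rw [← hAE]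
      exact lintegral_iUnion hAm hAd _
    rw [hsum1, hsum2]
    constructor
    · rw [← ENNReal.tsum_mul_left]
      exact ENNReal.tsum_le_tsum fun n => (hp n).1
    · rw [← ENNReal.tsum_mul_left]
      exact ENNReal.tsum_le_tsum fun n => (hp n).2
  exact le_antisymm (le_of_forall_factor (d := 2 * d) fun K hK => (main K hK).1)
    (le_of_forall_factor (d := 2 * d) fun K hK => (main K hK).2)

end Vale.Agent.P164.H362
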