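import Vale.Agent.P164.H362.Gm

/-!
# Regular variation of the exact gauge
-/

namespace Vale.Agent.P164.H362

open Set Metric Filter Topology MeasureTheory Vale.Agent.P164
open scoped NNReal ENNReal

/-- The exact gauge function `r^(1+κ/8) (log log (1/r))^(1/2-κ/16)`. -/
noncomputable def Gk (κ r : ℝ) : ℝ :=
  r ^ (1 + κ / 8) * Real.log (Real.log (1 / r)) ^ (1 / 2 - κ / 16)

theorem log_shift (a : ℝ) :
    Tendsto (fun L : ℝ => Real.log (L - a) / Real.log L) atTop (𝓝 1) := by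
  have h1 : Tendsto (fun L : ℝ => 1 - a / L) atTop (𝓝 1) := by
    have := (tendsto_const_nhds (x := a)).div_atTop (tendsto_id (α := ℝ) (x := atTop))
    simpa using (tendsto_const_nhds (x := (1 : ℝ))).sub this
  have h2 : Tendsto (fun L : ℝ => Real.log (1 - a / L)) atTop (𝓝 0) := by
    have := h1.log one_ne_zero
    simpa using this
  have h3 : Tendsto (fun L : ℝ => Real.log (1 - a / L) / Real.log L) atTop (𝓝 0) :=
    h2.div_atTop Real.tendsto_log_atTop
  have h4 : Tendsto (fun L : ℝ => 1 + Real.log (1 - a / L) / Real.log L) atTop (𝓝 1) := by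
    simpa using (tendsto_const_nhds (x := (1 : ℝ))).add h3
  refine h4.congr' ?_
  filter_upwards [eventually_gt_atTop (1 : ℝ), h1.eventually_const_lt (show (0 : ℝ) < 1 by norm_num)]
    with L hL h5
  have hL0 : 0 < L := by linarith
  have hlog : 0 < Real.log L := Real.log_pos hL
  have h6 : L - a = L * (1 - a / L) := by field_simp
  rw [h6, Real.log_mul hL0.ne' h5.ne', add_div, div_self hlog.ne']

theorem loglog_ratio {y : ℝ} (hy : 0 < y) :
    Tendsto (fun r : ℝ => Real.log (Real.log (1 / (y * r))) / Real.log (Real.log (1 / r)))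
      (𝓝[>] 0) (𝓝 1) := by
  have h1 : Tendsto (fun r : ℝ => Real.log (1 / r)) (𝓝[>] 0) atTop := by
    simp_rw [one_div]
    exact Real.tendsto_log_atTop.comp tendsto_inv_nhdsGT_zero
  refine ((log_shift (Real.log y)).comp h1).congr' ?_
  filter_upwards [self_mem_nhdsWithin] with r hr
  have hr' : 0 < r := hr
  have h2 : Real.log (1 / (y * r)) = Real.log (1 / r) - Real.log y := by
    rw [one_div, one_div, Real.log_inv, Real.log_inv, Real.log_mul hy.ne' hr'.ne']
    ring
  rw [Function.comp, h2]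

theorem loglog_pos : ∀ᶠ r : ℝ in 𝓝[>] 0, 0 < Real.log (Real.log (1 / r)) := by
  have h1 : Tendsto (fun r : ℝ => Real.log (Real.log (1 / r))) (𝓝[>] 0) atTop := by
    simp_rw [one_div]
    exact Real.tendsto_log_atTop.comp (Real.tendsto_log_atTop.comp tendsto_inv_nhdsGT_zero)
  exact h1.eventually_gt_atTop 0

theorem mul_nhdsGT {y : ℝ} (hy : 0 < y) : Tendsto (fun r : ℝ => y * r) (𝓝[>] 0) (𝓝[>] 0) := by
  refine tendsto_nhdsWithin_iff.2 ⟨?_, ?_⟩
  · have : Tendsto (fun r : ℝ => y * r) (𝓝 0) (𝓝 (y * 0)) := tendsto_id.const_mul y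
    rw [mul_zero] at this
    exact this.mono_left nhdsWithin_le_nhds
  · filter_upwards [self_mem_nhdsWithin] with r hr
    exact mul_pos hy hr

theorem Gk_pos (κ : ℝ) : ∀ᶠ r : ℝ in 𝓝[>] 0, 0 < Gk κ r := by
  filter_upwards [loglog_pos, self_mem_nhdsWithin] with r h1 h2
  exact mul_pos (Real.rpow_pos_of_pos h2 _) (Real.rpow_pos_of_pos h1 _)

theorem Gk_ratio (κ : ℝ) {y : ℝ} (hy : 0 < y) :
    Tendsto (fun r : ℝ => Gk κ (y * r) / Gk κ r) (𝓝[>] 0) (𝓝 (y ^ (1 + κ / 8))) := by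
  have h1 := ((loglog_ratio hy).rpow_const (p := 1 / 2 - κ / 16) (Or.inl one_ne_zero)).const_mul
    (y ^ (1 + κ / 8))
  rw [Real.one_rpow, mul_one] at h1
  refine h1.congr' ?_
  filter_upwards [loglog_pos, (mul_nhdsGT hy).eventually loglog_pos, self_mem_nhdsWithin]
    with r h2 h3 hr
  have hr' : 0 < r := hr
  rw [Gk, Gk, Real.mul_rpow hy.le hr'.le, Real.div_rpow h3.le h2.le]
  have h4 : r ^ (1 + κ / 8) ≠ 0 := (Real.rpow_pos_of_pos hr' _).ne'
  have h5 : Real.log (Real.log (1 / r)) ^ (1 / 2 - κ / 16) ≠ 0 := (Real.rpow_pos_of_pos h2 _).ne'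
  field_simp

/-- A function with a positive finite limit ratio to the exact gauge is regularly varying. -/
theorem regVar {κ c : ℝ} (hc : c ≠ 0) {h : ℝ → ℝ}
    (H : Tendsto (fun r : ℝ => h r / Gk κ r) (𝓝[>] 0) (𝓝 c)) : RegVar h (1 + κ / 8) := by
  intro y hy
  have h1 := (((H.comp (mul_nhdsGT hy)).mul (Gk_ratio κ hy)).mul (H.inv₀ hc))
  have h2 : c * y ^ (1 + κ / 8) * c⁻¹ = y ^ (1 + κ / 8) := by
    rw [mul_comm c, mul_assoc, mul_inv_cancel₀ hc, mul_one]
  rw [h2] at h1
  refine h1.congr' ?_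
  filter_upwards [Gk_pos κ, (mul_nhdsGT hy).eventually (Gk_pos κ)] with r h3 h4
  simp only [Function.comp]
  rw [inv_div]
  field_simp

end Vale.Agent.P164.H362
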