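import Vale.Agent.P164.X.Defs8

/-!
# The intrinsic measure of the SLE trace: definitions
-/

namespace Vale.Agent.P164

open MeasureTheory ProbabilityTheory Set
open scoped NNReal ENNReal

/-- The Hausdorff measure of the gauge `h` on `ℂ`, as a Borel measure: Mathlib's metric measure of
the function `r ↦ h r` of the diameter. -/
noncomputable def hausM (h : ℝ → ℝ) : Measure ℂ :=
  Measure.mkMetric fun r : ℝ≥0∞ => ENNReal.ofReal (h r.toReal)

/-- The function `r^(1+κ/8) (log log (1/r))^(1/2-κ/16)` (used for small `r > 0`). -/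
noncomputable def sleG (κ r : ℝ) : ℝ :=
  r ^ (1 + κ / 8) * Real.log (Real.log (1 / r)) ^ (1 / 2 - κ / 16)

/-- The open upper half-plane. -/
def upperH : Set ℂ := {z | 0 < z.im}

universe u

/-- Almost surely every segment `γ[s,t]`, `0 ≤ s < t`, of the trace has positive and finite
measure. -/
def PosFin (κ : ℝ) (h : ℝ → ℝ) : Prop :=
  ∀ (Ω : Type u) [MeasurableSpace Ω] (P : Measure Ω) (γ : Ω → ℝ → ℂ), IsSLE κ P γ →
    ∀ᵐ ω ∂P, ∀ s t : ℝ, 0 ≤ s → s < t →
      0 < hausM h (γ ω '' Icc s t) ∧ hausM h (γ ω '' Icc s t) < ⊤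

/-- Almost surely every segment of the trace has measure zero. -/
def Zero (κ : ℝ) (h : ℝ → ℝ) : Prop :=
  ∀ (Ω : Type u) [MeasurableSpace Ω] (P : Measure Ω) (γ : Ω → ℝ → ℂ), IsSLE κ P γ →
    ∀ᵐ ω ∂P, ∀ s t : ℝ, 0 ≤ s → s < t → hausM h (γ ω '' Icc s t) = 0

/-- Almost surely every segment of the trace has infinite measure. -/
def Infinite (κ : ℝ) (h : ℝ → ℝ) : Prop :=
  ∀ (Ω : Type u) [MeasurableSpace Ω] (P : Measure Ω) (γ : Ω → ℝ → ℂ), IsSLE κ P γ →
    ∀ᵐ ω ∂P, ∀ s t : ℝ, 0 ≤ s → s < t → hausM h (γ ω '' Icc s t) = ⊤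

/-- Conformal covariance with exponent `d = 1 + κ/8`: for every holomorphic map `φ` on an open set
`U` and every Borel set `E ⊆ U` on which `φ` is injective, `H(φ(E)) = ∫_E |φ'|^d dH`. -/
def ConfCov (κ : ℝ) (h : ℝ → ℝ) : Prop :=
  ∀ (U E : Set ℂ) (φ : ℂ → ℂ), IsOpen U → DifferentiableOn ℂ φ U → MeasurableSet E → E ⊆ U →
    InjOn φ E →
      hausM h (φ '' E) = ∫⁻ z in E, ENNReal.ofReal (‖deriv φ z‖ ^ (1 + κ / 8)) ∂(hausM h)

/-- The local mass of `E`: for almost every point `z` of `E` with respect to the `h`-measure `H`,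
the upper limit of `H(E ∩ B(z,r)) / h(r)` as `r ↓ 0` is at least `1` and at most `2^(1+κ/8)`. -/
def LocalMass (κ : ℝ) (h : ℝ → ℝ) (E : Set ℂ) : Prop :=
  ∀ᵐ z ∂(hausM h).restrict E,
    1 ≤ Filter.limsup (fun r : ℝ => hausM h (E ∩ Metric.closedBall z r) / ENNReal.ofReal (h r))
      (nhdsWithin 0 (Ioi 0)) ∧
    Filter.limsup (fun r : ℝ => hausM h (E ∩ Metric.closedBall z r) / ENNReal.ofReal (h r))
      (nhdsWithin 0 (Ioi 0)) ≤ ENNReal.ofReal (2 ^ (1 + κ / 8))

/-- The measure on the trace. For every SLE trace `γ`, almost surely: discs carry finite measure of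
the whole trace; `t ↦ H(γ[0,t])` is continuous and strictly increasing on `[0,∞)` from `0` to `∞`;
the local mass is as in `LocalMass`; and for every conformal map `φ` of the upper half-plane onto a domain `D`, the part in `D` of the
image curve `φ ∘ γ` has finite measure in every compact subset of `D` and the same local mass, its
part on `[s,t]` which is not visited before time `s` has positive measure, and its measure is the image of the measure of
the trace with density `|φ'|^d`: for every Borel set `A`,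
`H(φ(γ ∩ A)) = ∫_(γ ∩ A) |φ'|^d dH` (points of the upper half-plane). -/
def TraceLaw (κ : ℝ) (h : ℝ → ℝ) : Prop :=
  ∀ (Ω : Type u) [MeasurableSpace Ω] (P : Measure Ω) (γ : Ω → ℝ → ℂ), IsSLE κ P γ →
    ∀ᵐ ω ∂P,
      (∀ R : ℝ, hausM h (γ ω '' Ici 0 ∩ Metric.closedBall 0 R) < ⊤) ∧
      (hausM h (γ ω '' Icc 0 0) = 0 ∧
        ContinuousOn (fun t => hausM h (γ ω '' Icc 0 t)) (Ici 0) ∧
        StrictMonoOn (fun t => hausM h (γ ω '' Icc 0 t)) (Ici 0) ∧
        Filter.Tendsto (fun t => hausM h (γ ω '' Icc 0 t)) Filter.atTop (nhds ⊤)) ∧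
      LocalMass κ h (γ ω '' Ici 0) ∧
      ∀ φ : ℂ → ℂ, DifferentiableOn ℂ φ upperH → InjOn φ upperH →
        (∀ K : Set ℂ, IsCompact K → K ⊆ φ '' upperH →
          hausM h (φ '' (γ ω '' Ici 0 ∩ upperH) ∩ K) < ⊤) ∧
        LocalMass κ h (φ '' (γ ω '' Ici 0 ∩ upperH)) ∧
        (∀ s t : ℝ, 0 ≤ s → s < t →
          0 < hausM h (φ '' (γ ω '' Icc s t ∩ upperH) \ φ '' (γ ω '' Icc 0 s ∩ upperH))) ∧
        ∀ A : Set ℂ, MeasurableSet A →
          hausM h (φ '' (γ ω '' Ici 0 ∩ A ∩ upperH)) =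
            ∫⁻ z in γ ω '' Ici 0 ∩ A ∩ upperH,
              ENNReal.ofReal (‖deriv φ z‖ ^ (1 + κ / 8)) ∂(hausM h)

end Vale.Agent.P164
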