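import Vale.Agent.P164.H362.Conf
import Vale.Agent.P164.H362.Reg
import Vale.Agent.P164.H362.SDefs
import Vale.Agent.P164.H411.Intr

/-!
# Conformal covariance without the condition on the derivative
-/

namespace Vale.Agent.P164.H362

open Set Metric Filter Topology MeasureTheory ProbabilityTheory Vale.Agent.P164 Vale.Agent.P164.H411
open scoped NNReal ENNReal

/-- The critical values of a holomorphic map are countably many. -/
theorem crit_countable {U : Set ℂ} (hU : IsOpen U) {φ : ℂ → ℂ} (hφ : DifferentiableOn ℂ φ U) :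
    (φ '' (U ∩ {z | deriv φ z = 0})).Countable := by
  have key : ∀ z ∈ U, ∃ V ∈ 𝓝 z, ∀ w ∈ V, deriv φ w = 0 → φ w = φ z := by
    intro z hz
    have han : AnalyticAt ℂ (deriv φ) z := (hφ.analyticAt (hU.mem_nhds hz)).deriv
    rcases han.eventually_eq_zero_or_eventually_ne_zero with h | h
    · obtain ⟨ρ, hρ, hball⟩ := Metric.mem_nhds_iff.1 (Filter.inter_mem h (hU.mem_nhds hz))
      refine ⟨ball z ρ, ball_mem_nhds z hρ, fun w hw _ => ?_⟩
      exact isOpen_ball.is_const_of_deriv_eq_zero (convex_ball z ρ).isPreconnected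
        (hφ.mono fun x hx => (hball hx).2) (fun x hx => (hball hx).1) hw (mem_ball_self hρ)
    · rw [eventually_nhdsWithin_iff] at h
      refine ⟨_, h, fun w hw hw0 => ?_⟩
      by_contra hcon
      have hne : w ≠ z := fun e => hcon (by rw [e])
      exact hw hne hw0
  choose! V hV hVc using key
  obtain ⟨t, htU, ht, hcov⟩ := TopologicalSpace.countable_cover_nhdsWithin
    (s := U) (f := V) fun z hz => mem_nhdsWithin_of_mem_nhds (hV z hz)
  refine (ht.image φ).mono ?_
  rintro _ ⟨w, ⟨hwU, hw0⟩, rfl⟩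
  obtain ⟨z, hz, hwz⟩ := mem_iUnion₂.1 (hcov hwU)
  exact ⟨z, hz, (hVc z (htU hz) w hwz hw0).symm⟩

variable {h : ℝ → ℝ} {d : ℝ}

theorem hMeas_countable (hh : IsGauge h) {S : Set ℂ} (hS : S.Countable) : hMeas h S = 0 := by
  have : NullSingletonClass (hMeas h) := ⟨fun x => by rw [hMeas_apply hh.zero]; exact gm_singleton hh x⟩
  exact hS.measure_zero _

/-- Conformal covariance for injective restrictions of holomorphic maps. -/
theorem cov (hh : IsGauge h) (hd : 0 < d) (hv : RegVar h d) {U : Set ℂ} (hU : IsOpen U)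
    {φ : ℂ → ℂ} (hφ : DifferentiableOn ℂ φ U) {E : Set ℂ} (hE : MeasurableSet E) (hEU : E ⊆ U)
    (hinj : InjOn φ E) :
    hMeas h (φ '' E) = ∫⁻ z in E, ENNReal.ofReal (‖deriv φ z‖ ^ d) ∂(hMeas h) := by
  have hZm : MeasurableSet {z | deriv φ z = 0} := measurableSet_eq_fun (measurable_deriv φ) measurable_const
  have h1 : hMeas h (φ '' (E ∩ {z | deriv φ z = 0})) = 0 :=
    hMeas_countable hh ((crit_countable hU hφ).mono (image_mono (inter_subset_inter_left _ hEU)))
  have h2 : hMeas h (φ '' (E \ {z | deriv φ z = 0})) =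
      ∫⁻ z in E \ {z | deriv φ z = 0}, ENNReal.ofReal (‖deriv φ z‖ ^ d) ∂(hMeas h) := by
    rw [hMeas_apply hh.zero]
    exact conformal hh hd.le hv hU hφ (hE.diff hZm) (sdiff_subset.trans hEU)
      (hinj.mono sdiff_subset) fun z hz => hz.2
  have h3 : ∫⁻ z in E ∩ {z | deriv φ z = 0}, ENNReal.ofReal (‖deriv φ z‖ ^ d) ∂(hMeas h) = 0 := by
    have e : ∫⁻ z in E ∩ {z | deriv φ z = 0}, ENNReal.ofReal (‖deriv φ z‖ ^ d) ∂(hMeas h) =
        ∫⁻ _z in E ∩ {z | deriv φ z = 0}, 0 ∂(hMeas h) := by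
      apply setLIntegral_congr_fun (hE.inter hZm)
      intro z hz
      have hz0 : deriv φ z = 0 := hz.2
      dsimp only
      rw [hz0, norm_zero, Real.zero_rpow hd.ne', ENNReal.ofReal_zero]
    rw [e]
    simp
  rw [← lintegral_inter_add_sdiff _ E hZm, h3, zero_add, ← h2]
  apply le_antisymm
  · have e : φ '' E = φ '' (E ∩ {z | deriv φ z = 0}) ∪ φ '' (E \ {z | deriv φ z = 0}) := by
      rw [← image_union, inter_union_sdiff]
    calc hMeas h (φ '' E) ≤ hMeas h (φ '' (E ∩ {z | deriv φ z = 0})) +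
          hMeas h (φ '' (E \ {z | deriv φ z = 0})) := by
            rw [e]; exact measure_union_le _ _
      _ = hMeas h (φ '' (E \ {z | deriv φ z = 0})) := by rw [h1, zero_add]
  · exact measure_mono (image_mono sdiff_subset)

theorem sleG_eq (κ : ℝ) : sleG κ = Gk κ := by
  funext r
  rfl

theorem sleG_eq' (κ : ℝ) : sleG κ = exactG κ := by
  funext r
  rfl

theorem hausM_eq (h : ℝ → ℝ) : hausM h = hMeas h := rfl

theorem hausM_apply (hh : IsGauge h) (E : Set ℂ) : hausM h E = gaugeMeasure h E := by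
  rw [hausM_eq, hMeas_apply hh.zero]

/-- The covariance for gauges asymptotic to a multiple of the exact gauge. -/
theorem confCov {κ : ℝ} (h0 : 0 < κ) (hh : IsGauge h) {c : ℝ} (hc : 0 < c)
    (H : Tendsto (fun r => h r / sleG κ r) (𝓝[>] 0) (𝓝 c)) : ConfCov κ h := by
  intro U E φ hU hφ hE hEU hinj
  exact cov hh (by positivity) (regVar hc.ne' (by rwa [sleG_eq] at H)) hU hφ hE hEU hinj

universe u

/-- The law of the measure of the trace. -/
theorem traceLaw {κ : ℝ} (h0 : 0 < κ) (h8 : κ < 8) (hh : IsGauge h) {c : ℝ} (hc : 0 < c)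
    (H : Tendsto (fun r => h r / sleG κ r) (𝓝[>] 0) (𝓝 c)) : TraceLaw.{u} κ h := by
  have hcov := confCov h0 hh hc H
  rw [sleG_eq'] at H
  -- two-sided bounds near `0`
  have hb1 : ∀ᶠ r in 𝓝[>] (0 : ℝ), h r / exactG κ r < 2 * c :=
    H.eventually_lt_const (by linarith)
  have hb2 : ∀ᶠ r in 𝓝[>] (0 : ℝ), min (c / 2) 1 < h r / exactG κ r :=
    H.eventually_const_lt (lt_of_le_of_lt (min_le_left _ _) (by linarith))
  have hpos : ∀ᶠ r in 𝓝[>] (0 : ℝ), 0 < exactG κ r := by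
    filter_upwards [Ioo_mem_nhdsGT (Real.exp_pos (-Real.exp 1))] with r hr
    exact exactG_pos κ hr.1 hr.2
  obtain ⟨r₁, hr₁, hR⟩ := mem_nhdsGT_iff_exists_Ioo_subset.1 (hb1.and (hb2.and hpos))
  have hr₁' : 0 < r₁ := hr₁
  have hup : ∀ r, 0 < r → r < r₁ → h r ≤ 2 * c * exactG κ r := by
    intro r hr hr'
    obtain ⟨a1, a2, a3⟩ := hR ⟨hr, hr'⟩
    exact ((div_lt_iff₀ a3).1 a1).le
  have hlow : ∀ r, 0 < r → r < r₁ → min (c / 2) 1 * exactG κ r ≤ h r := by
    intro r hr hr'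
    obtain ⟨a1, a2, a3⟩ := hR ⟨hr, hr'⟩
    exact ((lt_div_iff₀ a3).1 a2).le
  have hO : OftenLe κ h (2 * c) := by
    intro δ hδ
    refine ⟨min (min δ r₁) 1 / 2, by positivity, ?_, ?_⟩
    · have h1 : min (min δ r₁) 1 ≤ δ := (min_le_left _ _).trans (min_le_left _ _)
      have h2 : 0 < min (min δ r₁) 1 := by positivity
      linarith
    · intro r hr
      have h1 : min (min δ r₁) 1 ≤ r₁ := (min_le_left _ _).trans (min_le_right _ _)
      have h2 : 0 < min (min δ r₁) 1 := by positivity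
      refine hup r (lt_of_lt_of_le (by positivity) hr.1) (lt_of_le_of_lt hr.2 (by linarith))
  obtain ⟨K, hK, HK⟩ := law_fin.{u} h0 h8
  obtain ⟨m, hm, Hm⟩ := law_pos.{u} h0 h8
  have hF := HK h hh (2 * c) (by positivity) hO
  have hP := Hm h hh (min (c / 2) 1) r₁ (by positivity) (min_le_right _ _) hr₁' hlow
  obtain ⟨M, m', -, -, hgood⟩ := law_good h0 hh (by positivity) (by positivity) hF hP
  intro Ω _ P γ hγ
  obtain ⟨W, hW, htr⟩ := sle_drv h0 hγ
  have hball : ∀ᵐ ω ∂P, ∀ R : ℝ, gaugeMeasure h (γ ω '' Ici 0 ∩ closedBall 0 R) < ⊤ := by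
    refine fin_ball fun n => ?_
    have h2 := (hF Ω P γ hγ).2.1 0 ((n : ℝ) + 1) (by positivity)
    rw [Complex.ofReal_zero] at h2
    exact MeanLe.ae_lt h2 ENNReal.ofReal_ne_top
  filter_upwards [(hgood Ω P γ hγ).1, hball, htr] with ω h1 h2 h3
  obtain ⟨⟨b1, b2, b3, b4, b5⟩, hdom⟩ := h1
  have hmeas : MeasurableSet (γ ω '' Ici 0) := meas_trace h3.cont
  have hv : RegVar h (1 + κ / 8) := regVar hc.ne' (by rwa [← sleG_eq', sleG_eq] at H)
  have hd := fun φ hφ1 hφ2 => hdom φ ⟨hφ1, hφ2⟩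
  refine ⟨?_, ⟨?_, ?_, ?_, ?_⟩, ?_, fun φ hφ1 hφ2 => ⟨?_, ?_, ?_, fun A hA => ?_⟩⟩
  · simpa only [hausM_apply hh] using h2
  · simpa only [hausM_apply hh] using b2
  · simpa only [hausM_apply hh] using b3
  · simpa only [hausM_apply hh] using b4
  · simpa only [hausM_apply hh] using b5
  · exact density hh hv hmeas fun R => by rw [hMeas_apply hh.zero]; exact h2 R
  · intro K hK hKD
    rw [hausM_apply hh]
    exact (hd φ hφ1 hφ2).1 K hK hKD
  · have hcm : IsConfMap φ := ⟨hφ1, hφ2⟩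
    refine density_open hh hv (H411.isOpen_dom hcm) ?_ (meas_domTrace hcm h3.cont) ?_
    · exact image_mono inter_subset_right
    · intro K hK hKD
      rw [hMeas_apply hh.zero]
      exact (hd φ hφ1 hφ2).1 K hK hKD
  · intro s t hs hst
    rw [hausM_apply hh]
    exact (hd φ hφ1 hφ2).2 s t hs hst
  · exact hcov upperH _ φ isOpen_uhp hφ1 ((hmeas.inter hA).inter isOpen_uhp.measurableSet)
      inter_subset_right (hφ2.mono inter_subset_right)

end Vale.Agent.P164.H362
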