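import Vale.Agent.P164.Bdl.B2

/-!
# The gauge measure as a Borel measure; regularly varying gauges and Lipschitz maps
-/

namespace Vale.Agent.P164.H362

open Set Metric Filter Topology MeasureTheory Vale.Agent.P164
open scoped NNReal ENNReal

/-- The Hausdorff measure of the gauge `h`, as a Borel measure on `ℂ`. -/
noncomputable def hMeas (h : ℝ → ℝ) : Measure ℂ :=
  Measure.mkMetric fun x : ℝ≥0∞ => ENNReal.ofReal (h x.toReal)

theorem hMeas_apply {h : ℝ → ℝ} (h0 : h 0 = 0) (E : Set ℂ) : hMeas h E = gaugeMeasure h E := by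
  rw [hMeas, Measure.mkMetric_apply]
  apply le_antisymm
  · refine iSup₂_le fun r hr => ?_
    obtain ⟨δ, hδ, hδr⟩ : ∃ δ : ℝ, 0 < δ ∧ ENNReal.ofReal δ ≤ r := by
      rcases eq_or_ne r ⊤ with rfl | hr'
      · exact ⟨1, one_pos, le_top⟩
      · exact ⟨r.toReal, ENNReal.toReal_pos hr.ne' hr', (ENNReal.ofReal_toReal hr').le⟩
    refine le_trans ?_ (pre_le_gaugeMeasure h hδ E)
    refine le_iInf fun U => le_iInf fun hU => le_iInf fun hU' => ?_
    refine iInf_le_of_le U (iInf_le_of_le hU (iInf_le_of_le (fun n => ?_) ?_))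
    · refine le_trans ?_ hδr
      rw [← ENNReal.ofReal_toReal (hU' n).1.ediam_ne_top]
      exact ENNReal.ofReal_le_ofReal (hU' n).2
    · refine ENNReal.tsum_le_tsum fun n => iSup_le fun _ => le_rfl
  · refine gaugeMeasure_le fun δ hδ => ?_
    refine le_trans ?_ (le_iSup₂_of_le (ENNReal.ofReal δ) (ENNReal.ofReal_pos.2 hδ) le_rfl)
    refine le_iInf fun U => le_iInf fun hU => le_iInf fun hU' => ?_
    refine iInf_le_of_le U (iInf_le_of_le hU (iInf_le_of_le (fun n => ?_) ?_))
    · have h1 : ediam (U n) ≠ ⊤ := ((hU' n).trans_lt ENNReal.ofReal_lt_top).ne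
      refine ⟨Metric.isBounded_iff_ediam_ne_top.2 h1, ?_⟩
      exact (ENNReal.toReal_le_toReal h1 ENNReal.ofReal_ne_top).2 (hU' n) |>.trans_eq
        (ENNReal.toReal_ofReal hδ.le)
    · refine ENNReal.tsum_le_tsum fun n => ?_
      rcases (U n).eq_empty_or_nonempty with he | hne
      · rw [he, Metric.diam_empty, h0, ENNReal.ofReal_zero]
        exact bot_le
      · exact le_iSup_of_le hne le_rfl

/-- `h` is regularly varying at `0` with index `d`. -/
def RegVar (h : ℝ → ℝ) (d : ℝ) : Prop :=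
  ∀ y : ℝ, 0 < y → Tendsto (fun r : ℝ => h (y * r) / h r) (𝓝[>] 0) (𝓝 (y ^ d))

/-- If `k ≤ C h` near `0`, the `k`-measure is at most `C` times the `h`-measure. -/
theorem gaugeMeasure_le_mul {h k : ℝ → ℝ} (h0 : h 0 = 0) (k0 : k 0 = 0) {C r₁ : ℝ} (hC : 0 < C)
    (hr₁ : 0 < r₁) (H : ∀ r, 0 < r → r < r₁ → k r ≤ C * h r) (E : Set ℂ) :
    gaugeMeasure k E ≤ ENNReal.ofReal C * gaugeMeasure h E := by
  refine gaugeMeasure_le fun δ hδ => ?_
  set δ' : ℝ := min δ (r₁ / 2) with hδ'
  have hδ'0 : 0 < δ' := lt_min hδ (half_pos hr₁)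
  have key : pre k δ E / ENNReal.ofReal C ≤ pre h δ' E := by
    refine le_iInf fun U => le_iInf fun hU => le_iInf fun hU' => ?_
    refine ENNReal.div_le_of_le_mul' ?_
    rw [← ENNReal.tsum_mul_left]
    refine iInf_le_of_le U (iInf_le_of_le hU (iInf_le_of_le (fun n => ⟨(hU' n).1,
      (hU' n).2.trans (min_le_left _ _)⟩) ?_))
    refine ENNReal.tsum_le_tsum fun n => ?_
    rw [← ENNReal.ofReal_mul hC.le]
    apply ENNReal.ofReal_le_ofReal
    rcases eq_or_lt_of_le (Metric.diam_nonneg (s := U n)) with hz | hz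
    · rw [← hz, h0, k0, mul_zero]
    · refine H _ hz ?_
      have h1 := (hU' n).2.trans (min_le_right _ _)
      linarith
  rw [ENNReal.div_le_iff_le_mul (Or.inl (ENNReal.ofReal_pos.2 hC).ne')
    (Or.inl ENNReal.ofReal_ne_top)] at key
  refine key.trans ?_
  rw [mul_comm]
  gcongr
  exact pre_le_gaugeMeasure h hδ'0 E

/-- A `K`-Lipschitz image has at most `K^d` times the measure, if the gauge is regularly varying
with index `d`. -/
theorem gaugeMeasure_lip {h : ℝ → ℝ} (hh : IsGauge h) {d : ℝ} (hv : RegVar h d)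
    {K : ℝ} (hK : 0 < K) {f : ℂ → ℂ} {E : Set ℂ}
    (hf : ∀ x ∈ E, ∀ y ∈ E, dist (f x) (f y) ≤ K * dist x y) :
    gaugeMeasure h (f '' E) ≤ ENNReal.ofReal (K ^ d) * gaugeMeasure h E := by
  have hKd : 0 < K ^ d := Real.rpow_pos_of_pos hK d
  -- it suffices to have the bound with `(1 + ε) K^d`
  have main : ∀ M : ℝ, K ^ d < M →
      gaugeMeasure h (f '' E) ≤ ENNReal.ofReal M * gaugeMeasure h E := by
    intro M hM
    have hM0 : 0 < M := hKd.trans hM
    have h1 : ∀ᶠ r in 𝓝[>] (0 : ℝ), h (K * r) / h r < M := (hv K hK).eventually_lt_const hM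
    obtain ⟨r₁, hr₁, H⟩ := mem_nhdsGT_iff_exists_Ioo_subset.1 h1
    have hr₁' : 0 < r₁ := hr₁
    refine gaugeMeasure_le fun δ hδ => ?_
    set δ' : ℝ := min (δ / K) (r₁ / 2) with hδ'
    have hδ'0 : 0 < δ' := lt_min (div_pos hδ hK) (half_pos hr₁')
    have key : pre h δ (f '' E) / ENNReal.ofReal M ≤ pre h δ' E := by
      refine le_iInf fun U => le_iInf fun hU => le_iInf fun hU' => ?_
      refine ENNReal.div_le_of_le_mul' ?_
      rw [← ENNReal.tsum_mul_left]
      have hdist : ∀ n, ∀ x ∈ f '' (U n ∩ E), ∀ y ∈ f '' (U n ∩ E),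
          dist x y ≤ K * Metric.diam (U n) := by
        rintro n _ ⟨x, hx, rfl⟩ _ ⟨y, hy, rfl⟩
        refine (hf x hx.2 y hy.2).trans ?_
        gcongr
        exact Metric.dist_le_diam_of_mem (hU' n).1 hx.1 hy.1
      have hb : ∀ n, Bornology.IsBounded (f '' (U n ∩ E)) := fun n =>
        Metric.isBounded_iff.2 ⟨K * Metric.diam (U n), fun x hx y hy => hdist n x hx y hy⟩
      have hdm : ∀ n, Metric.diam (f '' (U n ∩ E)) ≤ K * Metric.diam (U n) := fun n =>
        Metric.diam_le_of_forall_dist_le (by positivity) (hdist n)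
      refine iInf_le_of_le (fun n => f '' (U n ∩ E)) (iInf_le_of_le ?_ (iInf_le_of_le ?_ ?_))
      · rw [← image_iUnion, ← iUnion_inter]
        exact image_mono fun x hx => ⟨hU hx, hx⟩
      · intro n
        refine ⟨hb n, (hdm n).trans ?_⟩
        have h2 := (hU' n).2.trans (min_le_left _ _)
        rwa [le_div_iff₀ hK, mul_comm] at h2
      · refine ENNReal.tsum_le_tsum fun n => ?_
        rw [← ENNReal.ofReal_mul hM0.le]
        apply ENNReal.ofReal_le_ofReal
        have h3 : h (Metric.diam (f '' (U n ∩ E))) ≤ h (K * Metric.diam (U n)) :=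
          hh.mono Metric.diam_nonneg (by
            have : 0 ≤ Metric.diam (U n) := Metric.diam_nonneg
            exact mul_nonneg hK.le this) (hdm n)
        refine h3.trans ?_
        rcases eq_or_lt_of_le (Metric.diam_nonneg (s := U n)) with hz | hz
        · rw [← hz, mul_zero, hh.zero, mul_zero]
        · have h4 : Metric.diam (U n) < r₁ := by
            have h1 := (hU' n).2.trans (min_le_right _ _)
            linarith
          have h5 := H ⟨hz, h4⟩
          have h6 : h (K * Metric.diam (U n)) / h (Metric.diam (U n)) < M := h5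
          rw [div_lt_iff₀ (hh.pos _ hz)] at h6
          exact h6.le
    rw [ENNReal.div_le_iff_le_mul (Or.inl (ENNReal.ofReal_pos.2 hM0).ne')
      (Or.inl ENNReal.ofReal_ne_top)] at key
    refine key.trans ?_
    rw [mul_comm]
    gcongr
    exact pre_le_gaugeMeasure h hδ'0 E
  -- let `M ↓ K^d`
  by_cases htop : gaugeMeasure h E = ⊤
  · rw [htop, ENNReal.mul_top (ENNReal.ofReal_pos.2 hKd).ne']
    exact le_top
  · have h1 : Tendsto (fun M : ℝ => ENNReal.ofReal M * gaugeMeasure h E) (𝓝[>] (K ^ d))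
        (𝓝 (ENNReal.ofReal (K ^ d) * gaugeMeasure h E)) := by
      refine ENNReal.Tendsto.mul_const ?_ (Or.inr htop)
      exact (ENNReal.continuous_ofReal.tendsto _).mono_left nhdsWithin_le_nhds
    exact ge_of_tendsto h1 (eventually_nhdsWithin_of_forall fun M hM => main M hM)

end Vale.Agent.P164.H362
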