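import Vale.Agent.P164.H362.Cov
import Vale.Agent.P164.Bdl.B18

/-!
# The intrinsic measure of the SLE trace
-/

namespace Vale.Agent.P164.H362

open Set Metric Filter Topology MeasureTheory ProbabilityTheory Vale.Agent.P164 Vale.Agent.P164.H411
open scoped NNReal ENNReal

universe u

variable {κ : ℝ}

/-- The full theorem. -/
theorem intrinsic (h0 : 0 < κ) (h8 : κ < 8) :
    (∃ h : ℝ → ℝ, IsGauge h ∧ (∃ r₀ : ℝ, 0 < r₀ ∧ ∀ r : ℝ, 0 < r → r < r₀ → h r = sleG κ r) ∧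
      PosFin.{u} κ h) ∧
    (∀ k : ℝ → ℝ, IsGauge k →
      ((∃ c C r₀ : ℝ, 0 < c ∧ 0 < r₀ ∧ ∀ r : ℝ, 0 < r → r < r₀ →
          c * sleG κ r ≤ k r ∧ k r ≤ C * sleG κ r) → PosFin.{u} κ k) ∧
      ((∀ ε : ℝ, 0 < ε → ∃ δ : ℝ, 0 < δ ∧ ∀ r : ℝ, 0 < r → r ≤ δ → k r ≤ ε * sleG κ r) →
        Zero.{u} κ k) ∧
      ((∀ ε : ℝ, 0 < ε → ∃ δ : ℝ, 0 < δ ∧ ∀ r : ℝ, 0 < r → r ≤ δ → sleG κ r ≤ ε * k r) →
        Infinite.{u} κ k) ∧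
      ((∃ r₀ : ℝ, 0 < r₀ ∧ ∀ r : ℝ, 0 < r → r < r₀ →
          k r = r ^ (1 + κ / 8) * Real.log (Real.log (1 / r))) → Infinite.{u} κ k)) ∧
    ∀ h : ℝ → ℝ, IsGauge h → (∃ c : ℝ, 0 < c ∧ Tendsto (fun r => h r / sleG κ r) (𝓝[>] 0) (𝓝 c)) →
      ConfCov κ h ∧ TraceLaw.{u} κ h := by
  obtain ⟨h, hh, hr⟩ := gauge_exists h0 h8
  refine ⟨⟨h, hh, hr, ?_⟩, fun k hk => segs h0 h8 hk, ?_⟩
  · obtain ⟨r₀, hr₀, hG⟩ := hr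
    exact (segs h0 h8 hh).1 ⟨1, 1, r₀, one_pos, hr₀, fun r h1 h2 => by
      rw [one_mul, hG r h1 h2]; exact ⟨le_rfl, le_rfl⟩⟩
  · rintro h hh ⟨c, hc, H⟩
    exact ⟨confCov h0 hh hc H, traceLaw h0 h8 hh hc H⟩

end Vale.Agent.P164.H362
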